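import Mathlib
import Vale.Agent.Lib.P328.helper1.LorCore

/-!
P328: the reverse Cauchy–Schwarz inequality for the numbers of tables with rows indexed by a
finite type `κ`, by iterated transfers and a limit.

* `base θ C` : the product weight `θ ^ (∑ rows + ∑_j |κ_j - C_j|)` on `ℕ ^ (rows ⊕ reservoirs)`.
* `iter L F` : one transfer (from row `i` into the reservoir of column `j`) for each cell
  `(i, j)` of the list `L`, applied to `F`.
* `lorF_iter` : for `0 < θ ≤ 1` the iterated transfers of `base θ C` have the property `LorF`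
  (given that one transfer preserves `LorF`, hypothesis `hstep`).
* `ncq_iter` : hence, letting `θ → 0`, the values `H j l` of the iterated transfers of
  `base 0 C` at `(r; e_j + e_l)` satisfy `(∑ v_j v_l H_jl) (∑ H_jl) ≤ (∑ v_j H_jl) ^ 2`.
-/

namespace Vale.Agent.Lib.P328.Ncq

open Finset
open Vale.Agent.Lib.P328.NCq

variable {κ : Type} [Fintype κ] [DecidableEq κ] {n : ℕ}

/-- the one-coordinate weights -/
noncomputable def phi (θ : ℝ) (C : Fin n → ℕ) : κ ⊕ Fin n → ℕ → ℝ
  | Sum.inl _, k => θ ^ k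
  | Sum.inr j, k => θ ^ Nat.dist k (C j)

/-- the product weight -/
noncomputable def base (θ : ℝ) (C : Fin n → ℕ) : (κ ⊕ Fin n → ℕ) → ℝ :=
  fun p => ∏ a, phi θ C a (p a)

/-- one transfer for each cell of the list -/
noncomputable def iter (L : List (κ × Fin n)) (F : (κ ⊕ Fin n → ℕ) → ℝ) :
    (κ ⊕ Fin n → ℕ) → ℝ :=
  L.foldr (fun cell G => transfer (Sum.inr cell.2) (Sum.inl cell.1) G) F

theorem iter_nil (F : (κ ⊕ Fin n → ℕ) → ℝ) : iter [] F = F := rfl

theorem iter_cons (cell : κ × Fin n) (L : List (κ × Fin n))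
    (F : (κ ⊕ Fin n → ℕ) → ℝ) :
    iter (cell :: L) F = transfer (Sum.inr cell.2) (Sum.inl cell.1) (iter L F) := rfl

theorem lorF_base (θ : ℝ) (hθ : 0 < θ) (hθ1 : θ ≤ 1) (C : Fin n → ℕ) :
    LorF (base (κ := κ) θ C) := by
  apply lorF_prod
  · intro a k
    cases a with
    | inl i => exact pow_pos hθ _
    | inr j => exact pow_pos hθ _
  · intro a k
    cases a with
    | inl i =>
      show θ ^ k * θ ^ (k + 2) ≤ (θ ^ (k + 1)) ^ 2
      apply le_of_eq
      ring
    | inr j =>
      show θ ^ Nat.dist k (C j) * θ ^ Nat.dist (k + 2) (C j) ≤ (θ ^ Nat.dist (k + 1) (C j)) ^ 2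
      rw [← pow_add, ← pow_mul]
      apply pow_le_pow_of_le_one (le_of_lt hθ) hθ1
      unfold Nat.dist
      omega

theorem lorF_iter
    (hstep : ∀ (a b : κ ⊕ Fin n), a ≠ b → ∀ F : (κ ⊕ Fin n → ℕ) → ℝ, LorF F → LorF (transfer a b F))
    (θ : ℝ) (hθ : 0 < θ) (hθ1 : θ ≤ 1) (C : Fin n → ℕ)
    (L : List (κ × Fin n)) : LorF (iter L (base θ C)) := by
  induction L with
  | nil => exact lorF_base θ hθ hθ1 C
  | cons cell L ih =>
    rw [iter_cons]
    exact hstep _ _ (by simp) _ ih

theorem continuous_base (C : Fin n → ℕ) (p : κ ⊕ Fin n → ℕ) :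
    Continuous (fun θ : ℝ => base θ C p) := by
  unfold base
  apply continuous_finsetProd
  intro a _
  cases a with
  | inl i => exact continuous_pow _
  | inr j => exact continuous_pow _

theorem continuous_iter (C : Fin n → ℕ) (L : List (κ × Fin n)) :
    ∀ p : κ ⊕ Fin n → ℕ, Continuous (fun θ : ℝ => iter L (base θ C) p) := by
  induction L with
  | nil => exact continuous_base C
  | cons cell L ih =>
    intro p
    simp only [iter_cons, transfer]
    apply continuous_finsetSum
    intro k _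
    exact ih _

/-- the inequality for positive `θ` -/
theorem ncq_pos
    (hstep : ∀ (a b : κ ⊕ Fin n), a ≠ b → ∀ F : (κ ⊕ Fin n → ℕ) → ℝ, LorF F → LorF (transfer a b F))
    (θ : ℝ) (hθ : 0 < θ) (hθ1 : θ ≤ 1) (L : List (κ × Fin n)) (C : Fin n → ℕ)
    (r : κ → ℕ) (v : Fin n → ℝ) :
    (∑ j, ∑ l, v j * v l * iter L (base θ C)
        (Sum.elim r 0 + Pi.single (Sum.inr j) 1 + Pi.single (Sum.inr l) 1))
      * (∑ j, ∑ l, iter L (base θ C)
        (Sum.elim r 0 + Pi.single (Sum.inr j) 1 + Pi.single (Sum.inr l) 1))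
    ≤ (∑ j, ∑ l, v j * iter L (base θ C)
        (Sum.elim r 0 + Pi.single (Sum.inr j) 1 + Pi.single (Sum.inr l) 1)) ^ 2 := by
  obtain ⟨hpos, hone⟩ := lorF_iter hstep θ hθ hθ1 C L
  set F := iter L (base θ C) with hF
  set H : Fin n → Fin n → ℝ := fun j l =>
    F (Sum.elim r 0 + Pi.single (Sum.inr j) 1 + Pi.single (Sum.inr l) 1) with hH
  have hsymm : ∀ j l, H j l = H l j := by
    intro j l
    show F _ = F _
    rw [add_right_comm]
  rcases Nat.eq_zero_or_pos n with hn | hn
  · subst hn
    simp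
  have hone' := hone (Sum.elim r 0) (Sum.elim 0 1) (Sum.elim 0 v)
  have e1 : bil (hess F (Sum.elim r 0)) (Sum.elim 0 1) (Sum.elim 0 1) = ∑ j, ∑ l, H j l := by
    unfold bil hess
    simp [Fintype.sum_sum_type, hH]
  have e2 : bil (hess F (Sum.elim r 0)) (Sum.elim 0 v) (Sum.elim 0 v)
      = ∑ j, ∑ l, v j * v l * H j l := by
    unfold bil hess
    simp only [Fintype.sum_sum_type, Sum.elim_inl, Sum.elim_inr, Pi.zero_apply, zero_mul,
      mul_zero, Finset.sum_const_zero, zero_add, add_zero, hH]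
    apply Finset.sum_congr rfl
    intro j _
    apply Finset.sum_congr rfl
    intro l _
    ring
  have e3 : bil (hess F (Sum.elim r 0)) (Sum.elim 0 1) (Sum.elim 0 v)
      = ∑ j, ∑ l, v j * H j l := by
    unfold bil hess
    simp only [Fintype.sum_sum_type, Sum.elim_inl, Sum.elim_inr, Pi.zero_apply, zero_mul,
      mul_zero, Finset.sum_const_zero, zero_add, add_zero, Pi.one_apply, one_mul, hH]
    rw [Finset.sum_comm]
    apply Finset.sum_congr rfl
    intro j _
    apply Finset.sum_congr rfl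
    intro l _
    have := hsymm l j
    simp only [hH] at this
    rw [this]
    ring
  rw [e1, e2, e3] at hone'
  have hposH : 0 < ∑ j, ∑ l, H j l := by
    have : Nonempty (Fin n) := ⟨⟨0, hn⟩⟩
    apply Finset.sum_pos
    · intro j _
      apply Finset.sum_pos
      · intro l _
        exact hpos _
      · exact Finset.univ_nonempty
    · exact Finset.univ_nonempty
  have := hone' hposH
  linarith

/-- **The limit `θ → 0`.** -/
theorem ncq_iter
    (hstep : ∀ (a b : κ ⊕ Fin n), a ≠ b → ∀ F : (κ ⊕ Fin n → ℕ) → ℝ, LorF F → LorF (transfer a b F))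
    (L : List (κ × Fin n)) (C : Fin n → ℕ) (r : κ → ℕ) (v : Fin n → ℝ) :
    (∑ j, ∑ l, v j * v l * iter L (base 0 C)
        (Sum.elim r 0 + Pi.single (Sum.inr j) 1 + Pi.single (Sum.inr l) 1))
      * (∑ j, ∑ l, iter L (base 0 C)
        (Sum.elim r 0 + Pi.single (Sum.inr j) 1 + Pi.single (Sum.inr l) 1))
    ≤ (∑ j, ∑ l, v j * iter L (base 0 C)
        (Sum.elim r 0 + Pi.single (Sum.inr j) 1 + Pi.single (Sum.inr l) 1)) ^ 2 := by
  set Qf : ℝ → ℝ := fun θ =>
    (∑ j, ∑ l, v j * iter L (base θ C)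
        (Sum.elim r 0 + Pi.single (Sum.inr j) 1 + Pi.single (Sum.inr l) 1)) ^ 2
    - (∑ j, ∑ l, v j * v l * iter L (base θ C)
        (Sum.elim r 0 + Pi.single (Sum.inr j) 1 + Pi.single (Sum.inr l) 1))
      * (∑ j, ∑ l, iter L (base θ C)
        (Sum.elim r 0 + Pi.single (Sum.inr j) 1 + Pi.single (Sum.inr l) 1)) with hQ
  have hcont : Continuous Qf := by
    have hc : ∀ p : κ ⊕ Fin n → ℕ, Continuous (fun θ : ℝ => iter L (base θ C) p) :=
      continuous_iter C L
    apply Continuous.sub
    · apply Continuous.pow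
      apply continuous_finsetSum
      intro j _
      apply continuous_finsetSum
      intro l _
      exact continuous_const.mul (hc _)
    · apply Continuous.mul
      · apply continuous_finsetSum
        intro j _
        apply continuous_finsetSum
        intro l _
        exact continuous_const.mul (hc _)
      · apply continuous_finsetSum
        intro j _
        apply continuous_finsetSum
        intro l _
        exact hc _
  have hnn : ∀ θ : ℝ, 0 < θ → θ ≤ 1 → 0 ≤ Qf θ := by
    intro θ hθ hθ1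
    have := ncq_pos hstep θ hθ hθ1 L C r v
    simp only [hQ]
    linarith
  have hlim : Filter.Tendsto (fun k : ℕ => Qf (1 / ((k : ℝ) + 1))) Filter.atTop (nhds (Qf 0)) :=
    (hcont.tendsto 0).comp tendsto_one_div_add_atTop_nhds_zero_nat
  have h0 : 0 ≤ Qf 0 := by
    apply ge_of_tendsto' hlim
    intro k
    have hk : (0 : ℝ) < (k : ℝ) + 1 := by positivity
    apply hnn
    · positivity
    · rw [div_le_one hk]
      have : (0 : ℝ) ≤ (k : ℝ) := Nat.cast_nonneg k
      linarith
  simp only [hQ] at h0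
  linarith

end Vale.Agent.Lib.P328.Ncq
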