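import Mathlib
import Vale.Agent.Lib.P328.helper50.NcqLimit

/-!
P328: the iterated transfers of the point mass count tables.

* `fill C S p` : the arrays `k : κ → Fin n → ℕ` supported on the cell set `S`, with row sums
  `p (inl i)` and with `p (inr j) + (column sum j) = C j`.
* `card_fill_insert` : peeling one cell.
* `iter_eq_card` : the iterated transfers of `base 0 C` along a duplicate-free list of cells
  count `fill`.
* `tabs r c j l`, `mem_tabs`, `ncq_tabs_of_step`, `ncq_count_of_step` : the reverse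
  Cauchy–Schwarz inequality for the numbers of arrays with row sums `r` and column sums
  `c - e_j - e_l`, given that one transfer preserves `LorF` (hypothesis `hstep`).
-/

namespace Vale.Agent.Lib.P328.Ncq

open Finset
open Vale.Agent.Lib.P328.NCq

variable {κ : Type} [Fintype κ] [DecidableEq κ] {n : ℕ}

/-- change one cell of an array -/
def setCell (f : κ → Fin n → ℕ) (i₀ : κ) (j₀ : Fin n) (w : ℕ) : κ → Fin n → ℕ :=
  fun i j => if i = i₀ ∧ j = j₀ then w else f i j

theorem setCell_row (f : κ → Fin n → ℕ) (i₀ : κ) (j₀ : Fin n) (w : ℕ) (i : κ) :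
    ∑ j, setCell f i₀ j₀ w i j + (if i = i₀ then f i₀ j₀ else 0)
      = ∑ j, f i j + (if i = i₀ then w else 0) := by
  by_cases h : i = i₀
  · subst h
    rw [if_pos rfl, if_pos rfl]
    have hA := Finset.add_sum_erase univ (fun j => setCell f i j₀ w i j) (mem_univ j₀)
    have hB := Finset.add_sum_erase univ (fun j => f i j) (mem_univ j₀)
    have h1 : setCell f i j₀ w i j₀ = w := by simp [setCell]
    have h2 : ∑ j ∈ univ.erase j₀, setCell f i j₀ w i j = ∑ j ∈ univ.erase j₀, f i j := by
      apply Finset.sum_congr rfl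
      intro j hj
      have : j ≠ j₀ := Finset.ne_of_mem_erase hj
      simp [setCell, this]
    omega
  · rw [if_neg h, if_neg h]
    have : ∀ j, setCell f i₀ j₀ w i j = f i j := by
      intro j
      simp [setCell, h]
    simp [this]

theorem setCell_col (f : κ → Fin n → ℕ) (i₀ : κ) (j₀ : Fin n) (w : ℕ) (j : Fin n) :
    ∑ i, setCell f i₀ j₀ w i j + (if j = j₀ then f i₀ j₀ else 0)
      = ∑ i, f i j + (if j = j₀ then w else 0) := by
  by_cases h : j = j₀
  · subst h
    rw [if_pos rfl, if_pos rfl]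
    have hA := Finset.add_sum_erase univ (fun i => setCell f i₀ j w i j) (mem_univ i₀)
    have hB := Finset.add_sum_erase univ (fun i => f i j) (mem_univ i₀)
    have h1 : setCell f i₀ j w i₀ j = w := by simp [setCell]
    have h2 : ∑ i ∈ univ.erase i₀, setCell f i₀ j w i j = ∑ i ∈ univ.erase i₀, f i j := by
      apply Finset.sum_congr rfl
      intro i hi
      have : i ≠ i₀ := Finset.ne_of_mem_erase hi
      simp [setCell, this]
    omega
  · rw [if_neg h, if_neg h]
    have : ∀ i, setCell f i₀ j₀ w i j = f i j := by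
      intro i
      simp [setCell, h]
    simp [this]

/-- the arrays supported on `S` with row sums `p ∘ inl` whose column sums complete `p ∘ inr`
to `C` -/
noncomputable def fill (C : Fin n → ℕ) (S : Finset (κ × Fin n)) (p : κ ⊕ Fin n → ℕ) :
    Finset (κ → Fin n → ℕ) :=
  (Fintype.piFinset (fun i : κ =>
      Fintype.piFinset (fun _ : Fin n => range (p (Sum.inl i) + 1)))).filter
    (fun k => (∀ i j, (i, j) ∉ S → k i j = 0) ∧ (∀ i, ∑ j, k i j = p (Sum.inl i)) ∧
      ∀ j, p (Sum.inr j) + ∑ i, k i j = C j)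

theorem mem_fill (C : Fin n → ℕ) (S : Finset (κ × Fin n)) (p : κ ⊕ Fin n → ℕ)
    (k : κ → Fin n → ℕ) :
    k ∈ fill C S p ↔ (∀ i j, (i, j) ∉ S → k i j = 0) ∧ (∀ i, ∑ j, k i j = p (Sum.inl i)) ∧
      ∀ j, p (Sum.inr j) + ∑ i, k i j = C j := by
  unfold fill
  rw [Finset.mem_filter, Fintype.mem_piFinset]
  constructor
  · exact fun h => h.2
  · intro h
    refine ⟨fun i => ?_, h⟩
    rw [Fintype.mem_piFinset]
    intro j
    rw [Finset.mem_range, Nat.lt_succ_iff, ← h.2.1 i]
    exact Finset.single_le_sum (f := fun j => k i j) (fun _ _ => Nat.zero_le _) (mem_univ j)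

/-- the argument of the transfer for the cell `(i₀, j₀)` -/
def upd (p : κ ⊕ Fin n → ℕ) (i₀ : κ) (j₀ : Fin n) (v : ℕ) : κ ⊕ Fin n → ℕ :=
  Function.update (Function.update p (Sum.inl i₀) (p (Sum.inl i₀) - v)) (Sum.inr j₀)
    (p (Sum.inr j₀) + v)

theorem upd_inl (p : κ ⊕ Fin n → ℕ) (i₀ : κ) (j₀ : Fin n) (v : ℕ) (i : κ) :
    upd p i₀ j₀ v (Sum.inl i) = if i = i₀ then p (Sum.inl i₀) - v else p (Sum.inl i) := by
  unfold upd
  rw [Function.update_of_ne (by simp), Function.update_apply]
  simp

theorem upd_inr (p : κ ⊕ Fin n → ℕ) (i₀ : κ) (j₀ : Fin n) (v : ℕ) (j : Fin n) :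
    upd p i₀ j₀ v (Sum.inr j) = if j = j₀ then p (Sum.inr j₀) + v else p (Sum.inr j) := by
  unfold upd
  rw [Function.update_apply]
  by_cases h : j = j₀
  · subst h
    simp
  · rw [if_neg (by simpa using h), if_neg h, Function.update_of_ne (by simp)]

/-- **Peeling one cell.** -/
theorem card_fill_insert (C : Fin n → ℕ) (S : Finset (κ × Fin n)) (i₀ : κ) (j₀ : Fin n)
    (hc : (i₀, j₀) ∉ S) (p : κ ⊕ Fin n → ℕ) :
    (fill C (insert (i₀, j₀) S) p).card
      = ∑ v ∈ range (p (Sum.inl i₀) + 1), (fill C S (upd p i₀ j₀ v)).card := by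
  have hmaps : ∀ k ∈ fill C (insert (i₀, j₀) S) p, k i₀ j₀ ∈ range (p (Sum.inl i₀) + 1) := by
    intro k hk
    rw [mem_fill] at hk
    rw [Finset.mem_range, Nat.lt_succ_iff, ← hk.2.1 i₀]
    exact Finset.single_le_sum (f := fun j => k i₀ j) (fun _ _ => Nat.zero_le _) (mem_univ j₀)
  rw [Finset.card_eq_sum_card_fiberwise hmaps]
  apply Finset.sum_congr rfl
  intro v hv
  have hv' : v ≤ p (Sum.inl i₀) := Nat.lt_succ_iff.mp (Finset.mem_range.mp hv)
  apply Finset.card_nbij' (fun k => setCell k i₀ j₀ 0) (fun k => setCell k i₀ j₀ v)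
  · intro k hk
    beta_reduce
    rw [Finset.mem_coe, Finset.mem_filter, mem_fill] at hk
    obtain ⟨⟨hsupp, hrow, hcol⟩, hkv⟩ := hk
    rw [Finset.mem_coe, mem_fill]
    refine ⟨?_, ?_, ?_⟩
    · intro i j hij
      by_cases h : i = i₀ ∧ j = j₀
      · simp [setCell, h]
      · have e : setCell k i₀ j₀ 0 i j = k i j := by simp [setCell, h]
        rw [e]
        apply hsupp
        rw [Finset.mem_insert]
        rintro (h1 | h1)
        · exact h ⟨(Prod.mk.inj h1).1, (Prod.mk.inj h1).2⟩
        · exact hij h1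
    · intro i
      have h1 := setCell_row k i₀ j₀ 0 i
      have h2 := hrow i
      rw [upd_inl]
      by_cases h : i = i₀
      · subst h
        simp only [if_true] at h1 ⊢
        omega
      · simp only [h, if_false] at h1 ⊢
        omega
    · intro j
      have h1 := setCell_col k i₀ j₀ 0 j
      have h2 := hcol j
      rw [upd_inr]
      by_cases h : j = j₀
      · subst h
        simp only [if_true] at h1 ⊢
        omega
      · simp only [h, if_false] at h1 ⊢
        omega
  · intro k hk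
    beta_reduce
    rw [Finset.mem_coe, mem_fill] at hk
    obtain ⟨hsupp, hrow, hcol⟩ := hk
    have hk0 : k i₀ j₀ = 0 := hsupp i₀ j₀ hc
    rw [Finset.mem_coe, Finset.mem_filter, mem_fill]
    refine ⟨⟨?_, ?_, ?_⟩, ?_⟩
    · intro i j hij
      have h : ¬ (i = i₀ ∧ j = j₀) := by
        rintro ⟨h1, h2⟩
        apply hij
        rw [h1, h2]
        exact Finset.mem_insert_self _ _
      have e : setCell k i₀ j₀ v i j = k i j := by simp [setCell, h]
      rw [e]
      apply hsupp
      intro h1
      exact hij (Finset.mem_insert_of_mem h1)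
    · intro i
      have h1 := setCell_row k i₀ j₀ v i
      have h2 := hrow i
      rw [upd_inl] at h2
      by_cases h : i = i₀
      · subst h
        simp only [if_true] at h1 h2
        omega
      · simp only [h, if_false] at h1 h2
        omega
    · intro j
      have h1 := setCell_col k i₀ j₀ v j
      have h2 := hcol j
      rw [upd_inr] at h2
      by_cases h : j = j₀
      · subst h
        simp only [if_true] at h1 h2
        omega
      · simp only [h, if_false] at h1 h2
        omega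
    · simp [setCell]
  · intro k hk
    beta_reduce
    rw [Finset.mem_coe, Finset.mem_filter, mem_fill] at hk
    obtain ⟨_, hkv⟩ := hk
    funext i j
    by_cases h : i = i₀ ∧ j = j₀
    · obtain ⟨h1, h2⟩ := h
      subst h1
      subst h2
      simp [setCell, hkv]
    · simp [setCell, h]
  · intro k hk
    beta_reduce
    rw [Finset.mem_coe, mem_fill] at hk
    have hk0 : k i₀ j₀ = 0 := hk.1 i₀ j₀ hc
    funext i j
    by_cases h : i = i₀ ∧ j = j₀
    · obtain ⟨h1, h2⟩ := h
      subst h1
      subst h2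
      simp [setCell, hk0]
    · simp [setCell, h]

/-- the weight at `θ = 0` is the point mass at `(0; C)` -/
theorem base_zero (C : Fin n → ℕ) (p : κ ⊕ Fin n → ℕ) :
    base 0 C p = if (∀ i, p (Sum.inl i) = 0) ∧ (∀ j, p (Sum.inr j) = C j) then 1 else 0 := by
  unfold base
  rw [Fintype.prod_sum_type]
  have h1 : ∏ i : κ, phi 0 C (Sum.inl i) (p (Sum.inl i))
      = if ∀ i, p (Sum.inl i) = 0 then (1 : ℝ) else 0 := by
    have e : ∀ i : κ, phi 0 C (Sum.inl i) (p (Sum.inl i))
        = if p (Sum.inl i) = 0 then (1 : ℝ) else 0 := by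
      intro i
      show (0 : ℝ) ^ (p (Sum.inl i)) = _
      rw [zero_pow_eq]
    rw [Finset.prod_congr rfl (fun i _ => e i), Finset.prod_ite_zero]
    simp
  have h2 : ∏ j : Fin n, phi (κ := κ) 0 C (Sum.inr j) (p (Sum.inr j))
      = if ∀ j, p (Sum.inr j) = C j then (1 : ℝ) else 0 := by
    have e : ∀ j : Fin n, phi (κ := κ) 0 C (Sum.inr j) (p (Sum.inr j))
        = if p (Sum.inr j) = C j then (1 : ℝ) else 0 := by
      intro j
      show (0 : ℝ) ^ (Nat.dist (p (Sum.inr j)) (C j)) = _
      rw [zero_pow_eq]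
      have : Nat.dist (p (Sum.inr j)) (C j) = 0 ↔ p (Sum.inr j) = C j := by
        unfold Nat.dist
        omega
      simp only [this]
    rw [Finset.prod_congr rfl (fun j _ => e j), Finset.prod_ite_zero]
    simp
  rw [h1, h2]
  by_cases ha : ∀ i, p (Sum.inl i) = 0
  · by_cases hb : ∀ j, p (Sum.inr j) = C j
    · rw [if_pos ha, if_pos hb, if_pos ⟨ha, hb⟩]
      norm_num
    · have hab : ¬ ((∀ i, p (Sum.inl i) = 0) ∧ (∀ j, p (Sum.inr j) = C j)) := fun h => hb h.2
      rw [if_pos ha, if_neg hb, if_neg hab]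
      norm_num
  · have hab : ¬ ((∀ i, p (Sum.inl i) = 0) ∧ (∀ j, p (Sum.inr j) = C j)) := fun h => ha h.1
    rw [if_neg ha, if_neg hab]
    norm_num

theorem card_fill_empty (C : Fin n → ℕ) (p : κ ⊕ Fin n → ℕ) :
    ((fill C (∅ : Finset (κ × Fin n)) p).card : ℝ)
      = if (∀ i, p (Sum.inl i) = 0) ∧ (∀ j, p (Sum.inr j) = C j) then 1 else 0 := by
  by_cases h : (∀ i, p (Sum.inl i) = 0) ∧ (∀ j, p (Sum.inr j) = C j)
  · rw [if_pos h]
    have : fill C (∅ : Finset (κ × Fin n)) p = {fun _ _ => 0} := by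
      ext k
      rw [mem_fill, Finset.mem_singleton]
      constructor
      · intro hk
        funext i j
        exact hk.1 i j (Finset.notMem_empty _)
      · intro hk
        subst hk
        refine ⟨fun _ _ _ => rfl, fun i => ?_, fun j => ?_⟩
        · rw [h.1 i]
          simp
        · rw [h.2 j]
          simp
    rw [this, Finset.card_singleton, Nat.cast_one]
  · rw [if_neg h]
    have : fill C (∅ : Finset (κ × Fin n)) p = ∅ := by
      by_contra hne
      obtain ⟨k, hk⟩ := Finset.nonempty_iff_ne_empty.mpr hne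
      rw [mem_fill] at hk
      apply h
      have hz : ∀ i j, k i j = 0 := fun i j => hk.1 i j (Finset.notMem_empty _)
      constructor
      · intro i
        rw [← hk.2.1 i]
        simp [hz]
      · intro j
        rw [← hk.2.2 j]
        simp [hz]
    rw [this, Finset.card_empty, Nat.cast_zero]

/-- **The iterated transfers of the point mass count arrays.** -/
theorem iter_eq_card (C : Fin n → ℕ) (L : List (κ × Fin n)) (hL : L.Nodup) :
    ∀ p : κ ⊕ Fin n → ℕ, iter L (base 0 C) p = ((fill C L.toFinset p).card : ℝ) := by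
  induction L with
  | nil =>
    intro p
    rw [iter_nil, base_zero, List.toFinset_nil, card_fill_empty]
  | cons cell L ih =>
    intro p
    rw [List.nodup_cons] at hL
    have ih' := ih hL.2
    rw [iter_cons, List.toFinset_cons]
    have hc : (cell.1, cell.2) ∉ L.toFinset := by
      rw [List.mem_toFinset]
      exact hL.1
    have hcard := card_fill_insert C L.toFinset cell.1 cell.2 hc p
    rw [show insert cell L.toFinset = insert (cell.1, cell.2) L.toFinset from rfl, hcard,
      Nat.cast_sum]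
    show ∑ k ∈ range (p (Sum.inl cell.1) + 1), iter L (base 0 C) (upd p cell.1 cell.2 k) = _
    apply Finset.sum_congr rfl
    intro k _
    exact ih' _

/-- the arrays with row sums `r` and column sums `c - e_j - e_l` -/
noncomputable def tabs (r : κ → ℕ) (c : Fin n → ℕ) (j l : Fin n) : Finset (κ → Fin n → ℕ) :=
  fill c univ (Sum.elim r 0 + Pi.single (Sum.inr j) 1 + Pi.single (Sum.inr l) 1)

theorem mem_tabs (r : κ → ℕ) (c : Fin n → ℕ) (j l : Fin n) (k : κ → Fin n → ℕ) :
    k ∈ tabs r c j l ↔ (∀ i, ∑ j', k i j' = r i) ∧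
      ∀ j', ∑ i, k i j' + (if j' = j then 1 else 0) + (if j' = l then 1 else 0) = c j' := by
  unfold tabs
  rw [mem_fill]
  have e1 : ∀ i : κ, (Sum.elim r 0 + Pi.single (Sum.inr j) 1 + Pi.single (Sum.inr l) 1
      : κ ⊕ Fin n → ℕ) (Sum.inl i) = r i := by
    intro i
    simp [Pi.single_apply]
  have e2 : ∀ j' : Fin n, (Sum.elim r 0 + Pi.single (Sum.inr j) 1 + Pi.single (Sum.inr l) 1
      : κ ⊕ Fin n → ℕ) (Sum.inr j')
      = (if j' = j then 1 else 0) + (if j' = l then 1 else 0) := by
    intro j'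
    simp [Pi.single_apply]
  constructor
  · rintro ⟨_, h1, h2⟩
    refine ⟨fun i => ?_, fun j' => ?_⟩
    · rw [h1 i, e1 i]
    · have := h2 j'
      rw [e2 j'] at this
      omega
  · rintro ⟨h1, h2⟩
    refine ⟨fun i j' hij => absurd (Finset.mem_univ _) hij, fun i => ?_, fun j' => ?_⟩
    · rw [h1 i, e1 i]
    · have := h2 j'
      rw [e2 j']
      omega

/-- **The reverse Cauchy–Schwarz inequality for the numbers of arrays** with row sums `r` and
column sums `c - e_j - e_l`. -/
theorem ncq_tabs_of_step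
    (hstep : ∀ (a b : κ ⊕ Fin n), a ≠ b → ∀ F : (κ ⊕ Fin n → ℕ) → ℝ, LorF F → LorF (transfer a b F))
    (r : κ → ℕ) (c : Fin n → ℕ) (v : Fin n → ℝ) :
    (∑ j, ∑ l, v j * v l * ((tabs r c j l).card : ℝ)) * (∑ j, ∑ l, ((tabs r c j l).card : ℝ))
      ≤ (∑ j, ∑ l, v j * ((tabs r c j l).card : ℝ)) ^ 2 := by
  have hL : (Finset.univ : Finset (κ × Fin n)).toList.Nodup := Finset.nodup_toList _
  have hT : (Finset.univ : Finset (κ × Fin n)).toList.toFinset = Finset.univ :=
    Finset.toList_toFinset _
  have key := ncq_iter hstep (Finset.univ : Finset (κ × Fin n)).toList c r v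
  have e : ∀ j l : Fin n, iter (Finset.univ : Finset (κ × Fin n)).toList (base 0 c)
      (Sum.elim r 0 + Pi.single (Sum.inr j) 1 + Pi.single (Sum.inr l) 1)
      = ((tabs r c j l).card : ℝ) := by
    intro j l
    rw [iter_eq_card c _ hL, hT]
    rfl
  simp only [e] at key
  exact key

/-- the number of arrays, as the cardinality of a subtype -/
noncomputable def Hcount (r : κ → ℕ) (c : Fin n → ℕ) (j l : Fin n) : ℝ :=
  (Nat.card {k : κ → Fin n → ℕ // (∀ i, ∑ j', k i j' = r i) ∧
      ∀ j', (∑ i, k i j') + (if j' = j then 1 else 0) + (if j' = l then 1 else 0) = c j'} : ℝ)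

theorem Hcount_eq (r : κ → ℕ) (c : Fin n → ℕ) (j l : Fin n) :
    Hcount r c j l = ((tabs r c j l).card : ℝ) := by
  unfold Hcount
  rw [Nat.subtype_card (tabs r c j l) (fun k => mem_tabs r c j l k)]

theorem ncq_count_of_step
    (hstep : ∀ (a b : κ ⊕ Fin n), a ≠ b → ∀ F : (κ ⊕ Fin n → ℕ) → ℝ, LorF F → LorF (transfer a b F))
    (r : κ → ℕ) (c : Fin n → ℕ) (v : Fin n → ℝ) :
    (∑ j, ∑ l, v j * v l * Hcount r c j l) * (∑ j, ∑ l, Hcount r c j l)
      ≤ (∑ j, ∑ l, v j * Hcount r c j l) ^ 2 := by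
  simp only [Hcount_eq]
  exact ncq_tabs_of_step hstep r c v

end Vale.Agent.Lib.P328.Ncq
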