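import Mathlib
import Vale.Agent.Lib.P328.helper74.ChainDefs
import Vale.Agent.Lib.P328.helper74.NegCorrCore

/-!
P328: the column step for the level sequences of a box (independent proof).

`Lor_step` : if `Lor m w l q` then `Lor (m + C) (addW C w) (addL C t w l) (addQ C t w l q)`.

This file: the window inequality in the form used by the step.
-/

namespace Vale.Agent.Lib.P328.helper50

open Finset
open Vale.Agent.Lib.P328.helper74

/-- a positive semidefinite binary form dominates the square of its half-derivative -/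
theorem psd_cross {α β γ : ℝ} (h : ∀ y z : ℝ, 0 ≤ α * y ^ 2 - 2 * β * y * z + γ * z ^ 2)
    (y z : ℝ) : (α * y - β * z) ^ 2 ≤ α * (α * y ^ 2 - 2 * β * y * z + γ * z ^ 2) := by
  have hα : 0 ≤ α := by
    have := h 1 0
    simpa using this
  have hdisc : β ^ 2 ≤ α * γ := by
    rcases hα.eq_or_lt with h0 | hpos
    · have h1 := h ((γ + 1) / 2) β
      rw [← h0] at h1 ⊢
      nlinarith [sq_nonneg β]
    · have h1 := h β α
      have h2 : α * β ^ 2 ≤ α * (α * γ) := by nlinarith
      exact le_of_mul_le_mul_left h2 hpos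
  nlinarith [mul_nonneg (sub_nonneg.mpr hdisc) (sq_nonneg z)]

/-- the window inequality of `core_slack`, in a division-free form -/
theorem window_form (w φ e : ℕ → ℝ) (σ : ℝ) (N : ℕ)
    (hw : ∀ i ≤ N, 0 < w i) (hw1 : 0 ≤ w (N + 1)) (he : ∀ i < N, 0 ≤ e i)
    (hlc : ∀ i < N, w i * w (i + 2) ≤ w (i + 1) ^ 2)
    (hinc : ∀ i < N, (φ (i + 1) - φ i) ^ 2 * (w i * w (i + 1))
      ≤ (w (i + 1) ^ 2 - w i * w (i + 2)) * e i) :
    (∑ i ∈ range (N + 1), w i) *
        (∑ i ∈ range (N + 1), w i * φ i ^ 2 + 2 * σ * (w 0 * φ 0) + σ ^ 2 * w 0)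
      - (∑ i ∈ range (N + 1), w i * φ i + σ * w 0) ^ 2
    ≤ (∑ i ∈ range (N + 1), w i) * (∑ i ∈ range N, e i * w (i + 1) + σ ^ 2 * w 1) := by
  have hinc' : ∀ i < N,
      (φ (i + 1) - φ i) ^ 2 ≤ (w (i + 1) / w i - w (i + 2) / w (i + 1)) * e i := by
    intro i hi
    have hwi : 0 < w i := hw i (le_of_lt hi)
    have hwi1 : 0 < w (i + 1) := hw (i + 1) hi
    have e1 : (w (i + 1) / w i - w (i + 2) / w (i + 1)) * e i
        = (w (i + 1) ^ 2 - w i * w (i + 2)) * e i / (w i * w (i + 1)) := by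
      field_simp
    rw [e1, le_div_iff₀ (mul_pos hwi hwi1)]
    exact hinc i hi
  have hcore := core_slack w φ e σ N hw he hlc hinc'
  unfold Vb Ub at hcore
  have hs2 : ∑ i ∈ range (N + 1), w i * (φ i + if i = 0 then σ else 0) ^ 2
      = ∑ i ∈ range (N + 1), w i * φ i ^ 2 + 2 * σ * (w 0 * φ 0) + σ ^ 2 * w 0 := by
    have hterm : ∀ i ∈ range (N + 1), w i * (φ i + if i = 0 then σ else 0) ^ 2
        = w i * φ i ^ 2 + (if i = 0 then 2 * σ * (w 0 * φ 0) + σ ^ 2 * w 0 else 0) := by
      intro i _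
      by_cases h0 : i = 0
      · subst h0
        simp only [if_true]
        ring
      · simp only [h0, if_false]
        ring
    rw [Finset.sum_congr rfl hterm, Finset.sum_add_distrib, Finset.sum_ite_eq' (range (N + 1)) 0]
    simp
    ring
  have hs1 : ∑ i ∈ range (N + 1), w i * (φ i + if i = 0 then σ else 0)
      = ∑ i ∈ range (N + 1), w i * φ i + σ * w 0 := by
    have hterm : ∀ i ∈ range (N + 1), w i * (φ i + if i = 0 then σ else 0)
        = w i * φ i + (if i = 0 then σ * w 0 else 0) := by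
      intro i _
      by_cases h0 : i = 0
      · subst h0
        simp only [if_true]
        ring
      · simp only [h0, if_false]
        ring
    rw [Finset.sum_congr rfl hterm, Finset.sum_add_distrib, Finset.sum_ite_eq' (range (N + 1)) 0]
    simp
  have hXs : ∀ t, t ≤ N → 0 ≤ Xs w t := by
    intro t ht
    unfold Xs
    apply Finset.sum_nonneg
    intro i hi
    have := Finset.mem_range.mp hi
    exact le_of_lt (hw i (by omega))
  have hUb : ∑ t ∈ range N, e t * (w (t + 1) * Xs w N - w (N + 1) * Xs w t)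
      ≤ Xs w N * ∑ t ∈ range N, e t * w (t + 1) := by
    rw [Finset.mul_sum]
    apply Finset.sum_le_sum
    intro t ht
    have htN : t < N := Finset.mem_range.mp ht
    have h1 := he t htN
    have h2 := hXs t (le_of_lt htN)
    have h3 : 0 ≤ e t * (w (N + 1) * Xs w t) := mul_nonneg h1 (mul_nonneg hw1 h2)
    nlinarith
  have hσ : 0 ≤ σ ^ 2 * (w 0 * w (N + 1)) :=
    mul_nonneg (sq_nonneg σ) (mul_nonneg (le_of_lt (hw 0 (Nat.zero_le N))) hw1)
  have hX : Xs w N = ∑ i ∈ range (N + 1), w i := rfl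
  rw [hs2, hs1] at hcore
  rw [← hX]
  nlinarith

end Vale.Agent.Lib.P328.helper50
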