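import Mathlib
import Vale.Agent.Lib.P328.helper74.ChainDefs
import Vale.Agent.Lib.P328.helper50.LorStepA

/-!
P328: the column step for the level sequences of a box (independent proof).

This file: the window inequality for a sequence triple with the property `Lor`.
-/

namespace Vale.Agent.Lib.P328.helper50

open Finset
open Vale.Agent.Lib.P328.helper74

/-- the quadratic level form (at `x = 0`) -/
noncomputable def Tt (w l q : ℤ → ℝ) (y z : ℝ) (ρ : ℤ) : ℝ :=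
  w (ρ + 2) * y ^ 2 + 2 * l (ρ + 1) * y * z + q ρ * z ^ 2

/-- the linear level form (at `x = 0`) -/
noncomputable def Xi (w l : ℤ → ℝ) (y z : ℝ) (ρ : ℤ) : ℝ :=
  w (ρ + 1) * y + l ρ * z

/-- the binary form of `Lor` -/
noncomputable def Pf (w l q : ℤ → ℝ) (y z : ℝ) (ρ : ℤ) : ℝ :=
  (w (ρ + 1) ^ 2 - w ρ * w (ρ + 2)) * y ^ 2
    - 2 * (w ρ * l (ρ + 1) - w (ρ + 1) * l ρ) * y * z
    + (l ρ ^ 2 - w ρ * q ρ) * z ^ 2

theorem Xi_sq (w l q : ℤ → ℝ) (y z : ℝ) (ρ : ℤ) :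
    Xi w l y z ρ ^ 2 = w ρ * Tt w l q y z ρ + Pf w l q y z ρ := by
  unfold Xi Tt Pf
  ring

/-- the window inequality on a window inside the support -/
theorem win {m : ℕ} {w l q : ℤ → ℝ} (h : Lor m w l q) (a : ℤ) (N : ℕ) (ha : 0 ≤ a)
    (haN : a + (N : ℤ) ≤ (m : ℤ)) (y z σ : ℝ) :
    (∑ i ∈ range (N + 1), w (a + (i : ℤ))) *
        (∑ i ∈ range (N + 1), Tt w l q y z (a + (i : ℤ)) + 2 * σ * Xi w l y z a
          + σ ^ 2 * (w a - w (a + 1)))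
      ≤ (∑ i ∈ range (N + 1), Xi w l y z (a + (i : ℤ)) + σ * w a) ^ 2 := by
  obtain ⟨hpos, hw0, hl0, hq0, hS⟩ := h
  have c0 : a + ((0 : ℕ) : ℤ) = a := by simp
  have c1 : ∀ i : ℕ, a + ((i + 1 : ℕ) : ℤ) = a + (i : ℤ) + 1 := fun i => by
    push_cast
    ring
  have c2 : ∀ i : ℕ, a + ((i + 2 : ℕ) : ℤ) = a + (i : ℤ) + 2 := fun i => by
    push_cast
    ring
  have hin : ∀ i : ℕ, i ≤ N → 0 ≤ a + (i : ℤ) ∧ a + (i : ℤ) ≤ (m : ℤ) := by
    intro i hi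
    have h1 : (0 : ℤ) ≤ (i : ℤ) := Int.natCast_nonneg i
    have h2 : (i : ℤ) ≤ (N : ℤ) := by exact_mod_cast hi
    exact ⟨by linarith, by linarith⟩
  have hwp : ∀ i : ℕ, i ≤ N → 0 < w (a + (i : ℤ)) := fun i hi =>
    hpos _ (hin i hi).1 (hin i hi).2
  have hwnn : ∀ ρ : ℤ, 0 ≤ w ρ := by
    intro ρ
    by_cases hc : 0 ≤ ρ ∧ ρ ≤ (m : ℤ)
    · exact le_of_lt (hpos ρ hc.1 hc.2)
    · have hout : ρ < 0 ∨ (m : ℤ) < ρ := by
        by_contra hcon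
        push Not at hcon
        exact hc ⟨hcon.1, hcon.2⟩
      rw [hw0 ρ hout]
  have hPf : ∀ i : ℕ, i ≤ N → ∀ y z : ℝ, 0 ≤ Pf w l q y z (a + (i : ℤ)) := by
    intro i hi y z
    exact hS _ (hin i hi).1 (hin i hi).2 y z
  have hwin : (∑ i ∈ range (N + 1), w (a + (i : ℤ))) *
        (∑ i ∈ range (N + 1), w (a + (i : ℤ)) * (Xi w l y z (a + (i : ℤ)) / w (a + (i : ℤ))) ^ 2
          + 2 * σ * (w (a + ((0 : ℕ) : ℤ)) * (Xi w l y z (a + ((0 : ℕ) : ℤ)) / w (a + ((0 : ℕ) : ℤ))))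
          + σ ^ 2 * w (a + ((0 : ℕ) : ℤ)))
      - (∑ i ∈ range (N + 1), w (a + (i : ℤ)) * (Xi w l y z (a + (i : ℤ)) / w (a + (i : ℤ)))
          + σ * w (a + ((0 : ℕ) : ℤ))) ^ 2
      ≤ (∑ i ∈ range (N + 1), w (a + (i : ℤ))) *
        (∑ i ∈ range N, (Pf w l q y z (a + (i : ℤ)) / (w (a + (i : ℤ)) * w (a + (i : ℤ) + 1)))
            * w (a + ((i + 1 : ℕ) : ℤ))
          + σ ^ 2 * w (a + ((1 : ℕ) : ℤ))) := by
    refine window_form (fun i : ℕ => w (a + (i : ℤ)))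
      (fun i : ℕ => Xi w l y z (a + (i : ℤ)) / w (a + (i : ℤ)))
      (fun i : ℕ => Pf w l q y z (a + (i : ℤ)) / (w (a + (i : ℤ)) * w (a + (i : ℤ) + 1)))
      σ N hwp (hwnn _) ?_ ?_ ?_
    · intro i hi
      have h1 := hwp i (le_of_lt hi)
      have h2 := hwp (i + 1) hi
      rw [c1 i] at h2
      exact div_nonneg (hPf i (le_of_lt hi) y z) (le_of_lt (mul_pos h1 h2))
    · intro i hi
      show w (a + (i : ℤ)) * w (a + ((i + 2 : ℕ) : ℤ)) ≤ w (a + ((i + 1 : ℕ) : ℤ)) ^ 2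
      rw [c2 i, c1 i]
      have := hS _ (hin i (le_of_lt hi)).1 (hin i (le_of_lt hi)).2 1 0
      nlinarith
    · intro i hi
      show (Xi w l y z (a + ((i + 1 : ℕ) : ℤ)) / w (a + ((i + 1 : ℕ) : ℤ))
            - Xi w l y z (a + (i : ℤ)) / w (a + (i : ℤ))) ^ 2
          * (w (a + (i : ℤ)) * w (a + ((i + 1 : ℕ) : ℤ)))
        ≤ (w (a + ((i + 1 : ℕ) : ℤ)) ^ 2 - w (a + (i : ℤ)) * w (a + ((i + 2 : ℕ) : ℤ)))
          * (Pf w l q y z (a + (i : ℤ)) / (w (a + (i : ℤ)) * w (a + (i : ℤ) + 1)))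
      rw [c2 i, c1 i]
      have h1 := hwp i (le_of_lt hi)
      have h2 := hwp (i + 1) hi
      rw [c1 i] at h2
      have hne1 : w (a + (i : ℤ)) ≠ 0 := ne_of_gt h1
      have hne2 : w (a + (i : ℤ) + 1) ≠ 0 := ne_of_gt h2
      have e2 : a + (i : ℤ) + 1 + 1 = a + (i : ℤ) + 2 := by ring
      have hk : (Xi w l y z (a + (i : ℤ) + 1) / w (a + (i : ℤ) + 1)
            - Xi w l y z (a + (i : ℤ)) / w (a + (i : ℤ))) ^ 2
          * (w (a + (i : ℤ)) * w (a + (i : ℤ) + 1))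
          = ((w (a + (i : ℤ) + 1) ^ 2 - w (a + (i : ℤ)) * w (a + (i : ℤ) + 2)) * y
              - (w (a + (i : ℤ)) * l (a + (i : ℤ) + 1) - w (a + (i : ℤ) + 1) * l (a + (i : ℤ))) * z) ^ 2
            / (w (a + (i : ℤ)) * w (a + (i : ℤ) + 1)) := by
        unfold Xi
        rw [e2]
        field_simp
        ring
      have hr : (w (a + (i : ℤ) + 1) ^ 2 - w (a + (i : ℤ)) * w (a + (i : ℤ) + 2))
          * (Pf w l q y z (a + (i : ℤ)) / (w (a + (i : ℤ)) * w (a + (i : ℤ) + 1)))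
          = (w (a + (i : ℤ) + 1) ^ 2 - w (a + (i : ℤ)) * w (a + (i : ℤ) + 2))
            * Pf w l q y z (a + (i : ℤ)) / (w (a + (i : ℤ)) * w (a + (i : ℤ) + 1)) := by
        ring
      rw [hk, hr]
      apply div_le_div_of_nonneg_right _ (le_of_lt (mul_pos h1 h2))
      exact psd_cross (hS _ (hin i (le_of_lt hi)).1 (hin i (le_of_lt hi)).2) y z
  -- rewrite the sums
  have s1 : ∑ i ∈ range (N + 1),
        w (a + (i : ℤ)) * (Xi w l y z (a + (i : ℤ)) / w (a + (i : ℤ))) ^ 2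
      = ∑ i ∈ range (N + 1), Tt w l q y z (a + (i : ℤ))
        + ∑ i ∈ range (N + 1), Pf w l q y z (a + (i : ℤ)) / w (a + (i : ℤ)) := by
    rw [← Finset.sum_add_distrib]
    apply Finset.sum_congr rfl
    intro i hi
    have hiN : i ≤ N := Nat.lt_succ_iff.mp (Finset.mem_range.mp hi)
    have hne : w (a + (i : ℤ)) ≠ 0 := ne_of_gt (hwp i hiN)
    have e1 : w (a + (i : ℤ)) * (Xi w l y z (a + (i : ℤ)) / w (a + (i : ℤ))) ^ 2
        = Xi w l y z (a + (i : ℤ)) ^ 2 / w (a + (i : ℤ)) := by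
      field_simp
    rw [e1, Xi_sq w l q, add_div, mul_div_cancel_left₀ _ hne]
  have s2 : ∑ i ∈ range (N + 1),
        w (a + (i : ℤ)) * (Xi w l y z (a + (i : ℤ)) / w (a + (i : ℤ)))
      = ∑ i ∈ range (N + 1), Xi w l y z (a + (i : ℤ)) := by
    apply Finset.sum_congr rfl
    intro i hi
    have hiN : i ≤ N := Nat.lt_succ_iff.mp (Finset.mem_range.mp hi)
    have hne : w (a + (i : ℤ)) ≠ 0 := ne_of_gt (hwp i hiN)
    field_simp
  have s3 : w (a + ((0 : ℕ) : ℤ)) * (Xi w l y z (a + ((0 : ℕ) : ℤ)) / w (a + ((0 : ℕ) : ℤ)))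
      = Xi w l y z a := by
    rw [c0]
    have hne : w a ≠ 0 := by
      have := hwp 0 (Nat.zero_le N)
      rw [c0] at this
      exact ne_of_gt this
    field_simp
  have s4 : ∑ i ∈ range N, (Pf w l q y z (a + (i : ℤ)) / (w (a + (i : ℤ)) * w (a + (i : ℤ) + 1)))
        * w (a + ((i + 1 : ℕ) : ℤ))
      ≤ ∑ i ∈ range (N + 1), Pf w l q y z (a + (i : ℤ)) / w (a + (i : ℤ)) := by
    rw [Finset.sum_range_succ]
    have hlast : 0 ≤ Pf w l q y z (a + (N : ℤ)) / w (a + (N : ℤ)) :=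
      div_nonneg (hPf N le_rfl y z) (le_of_lt (hwp N le_rfl))
    have heq : ∑ i ∈ range N, (Pf w l q y z (a + (i : ℤ)) / (w (a + (i : ℤ)) * w (a + (i : ℤ) + 1)))
        * w (a + ((i + 1 : ℕ) : ℤ))
        = ∑ i ∈ range N, Pf w l q y z (a + (i : ℤ)) / w (a + (i : ℤ)) := by
      apply Finset.sum_congr rfl
      intro i hi
      have hiN : i < N := Finset.mem_range.mp hi
      have h1 := hwp i (le_of_lt hiN)
      have h2 := hwp (i + 1) hiN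
      rw [c1 i] at h2
      have hne1 : w (a + (i : ℤ)) ≠ 0 := ne_of_gt h1
      have hne2 : w (a + (i : ℤ) + 1) ≠ 0 := ne_of_gt h2
      rw [c1 i]
      field_simp
    rw [heq]
    linarith
  have c1' : a + ((1 : ℕ) : ℤ) = a + 1 := by simp
  rw [s1, s2, s3, c0, c1'] at hwin
  have hXs : 0 ≤ ∑ i ∈ range (N + 1), w (a + (i : ℤ)) :=
    Finset.sum_nonneg (fun i _ => hwnn _)
  have hprod := mul_nonneg hXs (sub_nonneg.mpr s4)
  nlinarith

end Vale.Agent.Lib.P328.helper50
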