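import Mathlib
import Vale.Agent.Lib.P328.helper74.ChainDefs
import Vale.Agent.Lib.P328.helper50.LorStepB

/-!
P328: the column step for the level sequences of a box (independent proof).

This file: windows that leave the support, and the step `Lor_step`.
-/

namespace Vale.Agent.Lib.P328.helper50

open Finset
open Vale.Agent.Lib.P328.helper74

/-- a window sum only sees the part of the window where the summand does not vanish -/
theorem sum_window_eq (G : ℤ → ℝ) (a : ℤ) (C d M : ℕ) (hdM : d + M ≤ C)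
    (hlo : ∀ i : ℕ, i < d → G (a + (i : ℤ)) = 0)
    (hhi : ∀ i : ℕ, d + M < i → i ≤ C → G (a + (i : ℤ)) = 0) :
    ∑ i ∈ range (C + 1), G (a + (i : ℤ)) = ∑ j ∈ range (M + 1), G (a + (d : ℤ) + (j : ℤ)) := by
  obtain ⟨e, he⟩ : ∃ e, C + 1 = d + (M + 1) + e := ⟨C - d - M, by omega⟩
  rw [he, Finset.sum_range_add, Finset.sum_range_add]
  have h1 : ∑ x ∈ range d, G (a + (x : ℤ)) = 0 :=
    Finset.sum_eq_zero (fun i hi => hlo i (Finset.mem_range.mp hi))
  have h3 : ∑ x ∈ range e, G (a + ((d + (M + 1) + x : ℕ) : ℤ)) = 0 := by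
    apply Finset.sum_eq_zero
    intro i hi
    have := Finset.mem_range.mp hi
    exact hhi _ (by omega) (by omega)
  rw [h1, h3, zero_add, add_zero]
  apply Finset.sum_congr rfl
  intro j _
  congr 1
  push_cast
  ring

/-- reflection of a window sum -/
theorem sum_reflect (F : ℤ → ℝ) (r : ℤ) (C : ℕ) :
    ∑ k ∈ range (C + 1), F (r - (k : ℤ)) = ∑ i ∈ range (C + 1), F (r - (C : ℤ) + (i : ℤ)) := by
  have h := Finset.sum_range_reflect (fun i : ℕ => F (r - (C : ℤ) + (i : ℤ))) (C + 1)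
  rw [← h]
  apply Finset.sum_congr rfl
  intro j hj
  have hj' : j ≤ C := Nat.lt_succ_iff.mp (Finset.mem_range.mp hj)
  show F (r - (j : ℤ)) = F (r - (C : ℤ) + ((C + 1 - 1 - j : ℕ) : ℤ))
  congr 1
  have : ((C + 1 - 1 - j : ℕ) : ℤ) = (C : ℤ) - (j : ℤ) := by
    rw [Nat.add_sub_cancel, Nat.cast_sub hj']
  rw [this]
  ring

theorem sum_reflect_shift (F : ℤ → ℝ) (r j : ℤ) (C : ℕ) :
    ∑ k ∈ range (C + 1), F (r + j - (k : ℤ))
      = ∑ i ∈ range (C + 1), F (r - (C : ℤ) + (i : ℤ) + j) := by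
  rw [sum_reflect]
  apply Finset.sum_congr rfl
  intro i _
  congr 1
  ring

theorem sum_peel1 (G : ℤ → ℝ) (R : ℕ) :
    ∑ j ∈ range (R + 1 + 1), G (-1 + (j : ℤ)) = G (-1) + ∑ i ∈ range (R + 1), G (0 + (i : ℤ)) := by
  rw [Finset.sum_range_succ']
  have e0 : G (-1 + ((0 : ℕ) : ℤ)) = G (-1) := by
    simp
  have e2 : ∑ k ∈ range (R + 1), G (-1 + ((k + 1 : ℕ) : ℤ))
      = ∑ i ∈ range (R + 1), G (0 + (i : ℤ)) := by
    apply Finset.sum_congr rfl
    intro i _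
    congr 1
    push_cast
    ring
  rw [e0, e2]
  ring

theorem sum_peel2 (G : ℤ → ℝ) (R : ℕ) :
    ∑ j ∈ range (R + 2 + 1), G (-2 + (j : ℤ))
      = G (-2) + G (-1) + ∑ i ∈ range (R + 1), G (0 + (i : ℤ)) := by
  rw [Finset.sum_range_succ', Finset.sum_range_succ']
  have e0 : G (-2 + ((0 : ℕ) : ℤ)) = G (-2) := by
    simp
  have e1 : G (-2 + ((0 + 1 : ℕ) : ℤ)) = G (-1) := by
    norm_num
  rw [e0, e1]
  have e2 : ∑ k ∈ range (R + 1), G (-2 + ((k + 1 + 1 : ℕ) : ℤ))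
      = ∑ i ∈ range (R + 1), G (0 + (i : ℤ)) := by
    apply Finset.sum_congr rfl
    intro i _
    congr 1
    push_cast
    ring
  rw [e2]
  ring

section step

variable {m : ℕ} {w l q : ℤ → ℝ}

theorem w_nonneg (h : Lor m w l q) (ρ : ℤ) : 0 ≤ w ρ := by
  obtain ⟨hpos, hw0, _, _, _⟩ := h
  by_cases hc : 0 ≤ ρ ∧ ρ ≤ (m : ℤ)
  · exact le_of_lt (hpos ρ hc.1 hc.2)
  · have hout : ρ < 0 ∨ (m : ℤ) < ρ := by
      by_contra hcon
      push Not at hcon
      exact hc ⟨hcon.1, hcon.2⟩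
    rw [hw0 ρ hout]

theorem Tt_top (h : Lor m w l q) (y z : ℝ) (ρ : ℤ) (hρ : (m : ℤ) < ρ) : Tt w l q y z ρ = 0 := by
  obtain ⟨_, hw0, hl0, hq0, _⟩ := h
  unfold Tt
  rw [hw0 (ρ + 2) (Or.inr (by linarith)), hl0 (ρ + 1) (Or.inr (by linarith)),
    hq0 ρ (Or.inr hρ)]
  ring

theorem Xi_top (h : Lor m w l q) (y z : ℝ) (ρ : ℤ) (hρ : (m : ℤ) < ρ) : Xi w l y z ρ = 0 := by
  obtain ⟨_, hw0, hl0, _, _⟩ := h
  unfold Xi
  rw [hw0 (ρ + 1) (Or.inr (by linarith)), hl0 ρ (Or.inr hρ)]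
  ring

theorem Tt_low (h : Lor m w l q) (y z : ℝ) (ρ : ℤ) (hρ : ρ < -2) : Tt w l q y z ρ = 0 := by
  obtain ⟨_, hw0, hl0, hq0, _⟩ := h
  unfold Tt
  rw [hw0 (ρ + 2) (Or.inl (by linarith)), hl0 (ρ + 1) (Or.inl (by linarith)),
    hq0 ρ (Or.inl (by linarith))]
  ring

theorem Xi_low (h : Lor m w l q) (y z : ℝ) (ρ : ℤ) (hρ : ρ < -1) : Xi w l y z ρ = 0 := by
  obtain ⟨_, hw0, hl0, _, _⟩ := h
  unfold Xi
  rw [hw0 (ρ + 1) (Or.inl (by linarith)), hl0 ρ (Or.inl (by linarith))]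
  ring

/-- the window inequality on a window that starts inside the support and may leave it at
the top -/
theorem win_top (h : Lor m w l q) (a : ℤ) (K : ℕ) (ha : 0 ≤ a) (ham : a ≤ (m : ℤ))
    (y z σ : ℝ) :
    (∑ i ∈ range (K + 1), w (a + (i : ℤ))) *
        (∑ i ∈ range (K + 1), Tt w l q y z (a + (i : ℤ)) + 2 * σ * Xi w l y z a
          + σ ^ 2 * (w a - w (a + 1)))
      ≤ (∑ i ∈ range (K + 1), Xi w l y z (a + (i : ℤ)) + σ * w a) ^ 2 := by
  by_cases hK : a + (K : ℤ) ≤ (m : ℤ)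
  · exact win h a K ha hK y z σ
  · have hK' : (m : ℤ) < a + (K : ℤ) := not_le.mp hK
    obtain ⟨N, hN⟩ : ∃ N : ℕ, (N : ℤ) = (m : ℤ) - a :=
      ⟨((m : ℤ) - a).toNat, Int.toNat_of_nonneg (by linarith)⟩
    have hNK : 0 + N ≤ K := by
      have : (N : ℤ) < (K : ℤ) := by linarith
      have : N < K := by exact_mod_cast this
      omega
    have htop : ∀ i : ℕ, 0 + N < i → (m : ℤ) < a + (i : ℤ) := by
      intro i hi
      have : (N : ℤ) < (i : ℤ) := by
        have : N < i := by omega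
        exact_mod_cast this
      linarith
    have hw0 := h.2.1
    have e1 := sum_window_eq w a K 0 N hNK (fun i hi => absurd hi (Nat.not_lt_zero i))
      (fun i hi _ => hw0 _ (Or.inr (htop i hi)))
    have e2 := sum_window_eq (Tt w l q y z) a K 0 N hNK
      (fun i hi => absurd hi (Nat.not_lt_zero i))
      (fun i hi _ => Tt_top h y z _ (htop i hi))
    have e3 := sum_window_eq (Xi w l y z) a K 0 N hNK
      (fun i hi => absurd hi (Nat.not_lt_zero i))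
      (fun i hi _ => Xi_top h y z _ (htop i hi))
    simp only [Nat.cast_zero, add_zero] at e1 e2 e3
    rw [e1, e2, e3]
    exact win h a N ha (by linarith) y z σ

end step

end Vale.Agent.Lib.P328.helper50
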