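import Mathlib
import Vale.Agent.Lib.P328.helper74.ChainDefs
import Vale.Agent.Lib.P328.helper50.LorStepC

/-!
P328: the column step for the level sequences of a box (independent proof).

`Lor_step` : if `Lor m w l q` then `Lor (m + C) (addW C w) (addL C t w l) (addQ C t w l q)`.

The new binary form at level `r` is `ξ² - W T` for the window `[r - C, r]` of the old
sequences; the window inequality (`win_top`) bounds it, after the parts of the window below
`0` and above `m` have been evaluated.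
-/

namespace Vale.Agent.Lib.P328.helper50

open Finset
open Vale.Agent.Lib.P328.helper74

variable {m : ℕ} {w l q : ℤ → ℝ}

/-- the window inequality for the window `[R - C, R]`, all positions of the window -/
theorem win_full (h : Lor m w l q) (C R : ℕ) (hRm : R ≤ m + C) (y z θ : ℝ) :
    (∑ i ∈ range (C + 1), w ((R : ℤ) - (C : ℤ) + (i : ℤ))) *
        (∑ i ∈ range (C + 1), Tt w l q y z ((R : ℤ) - (C : ℤ) + (i : ℤ))
          + 2 * θ * Xi w l y z ((R : ℤ) - (C : ℤ))
          + θ ^ 2 * (w ((R : ℤ) - (C : ℤ)) - if 1 ≤ C then w ((R : ℤ) - (C : ℤ) + 1) else 0))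
      ≤ (∑ i ∈ range (C + 1), Xi w l y z ((R : ℤ) - (C : ℤ) + (i : ℤ))
          + θ * w ((R : ℤ) - (C : ℤ))) ^ 2 := by
  have hX0 : Xi w l y z 0 = w 1 * y + l 0 * z := by
    show w (0 + 1) * y + l 0 * z = _
    rw [zero_add]
  have hT1 : Tt w l q y z (-1) = w 1 * y ^ 2 + 2 * l 0 * y * z := by
    show w (-1 + 2) * y ^ 2 + 2 * l (-1 + 1) * y * z + q (-1) * z ^ 2 = _
    rw [show (-1 : ℤ) + 2 = 1 by norm_num, show (-1 : ℤ) + 1 = 0 by norm_num,
      h.2.2.2.1 (-1) (Or.inl (by norm_num))]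
    ring
  have hX1 : Xi w l y z (-1) = w 0 * y := by
    show w (-1 + 1) * y + l (-1) * z = _
    rw [show (-1 : ℤ) + 1 = 0 by norm_num, h.2.2.1 (-1) (Or.inl (by norm_num))]
    ring
  have hwm1 : w (-1) = 0 := h.2.1 _ (Or.inl (by norm_num))
  have hSW : ∀ K : ℕ, 0 ≤ ∑ i ∈ range (K + 1), w (0 + (i : ℤ)) := fun K =>
    Finset.sum_nonneg (fun i _ => w_nonneg h _)
  rcases Nat.eq_zero_or_pos C with hC0 | hCpos
  · -- no new levels: the form is unchanged
    subst hC0
    have hR : (0 : ℤ) ≤ (R : ℤ) ∧ (R : ℤ) ≤ (m : ℤ) :=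
      ⟨Int.natCast_nonneg R, by exact_mod_cast (by omega : R ≤ m)⟩
    have hP : 0 ≤ Pf w l q y z (R : ℤ) := h.2.2.2.2 _ hR.1 hR.2 y z
    have hsq := Xi_sq w l q y z (R : ℤ)
    rw [if_neg (by norm_num : ¬ (1 ≤ 0))]
    simp only [zero_add, Finset.sum_range_one, Nat.cast_zero, sub_zero, add_zero]
    nlinarith
  · have hC1 : 1 ≤ C := hCpos
    rw [if_pos hC1]
    rcases Nat.lt_or_ge R C with hlt | hge
    · rcases Nat.eq_or_lt_of_le (Nat.succ_le_of_lt hlt) with heq | hlt2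
      · -- the window starts at `-1`
        subst heq
        have ha : (R : ℤ) - ((R.succ : ℕ) : ℤ) = -1 := by
          push_cast
          ring
        rw [ha, sum_peel1 w R, sum_peel1 (Tt w l q y z) R, sum_peel1 (Xi w l y z) R]
        rw [hwm1, hT1, hX1, show (-1 : ℤ) + 1 = 0 by norm_num]
        have hW := win_top h 0 R le_rfl (Int.natCast_nonneg m) y z y
        rw [hX0, zero_add] at hW
        have hw0 : 0 ≤ w 0 := w_nonneg h 0
        have hprod := mul_nonneg (hSW R) (mul_nonneg hw0 (sq_nonneg (y - θ)))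
        nlinarith
      · -- the window starts at or below `-2`
        obtain ⟨d, rfl⟩ : ∃ d, C = R + 2 + d := ⟨C - R - 2, by omega⟩
        have ha : (R : ℤ) - ((R + 2 + d : ℕ) : ℤ) = -(d : ℤ) - 2 := by
          push_cast
          ring
        rw [ha]
        have hd0 : (0 : ℤ) ≤ (d : ℤ) := Int.natCast_nonneg d
        have hlt : ∀ i : ℕ, i < d → -(d : ℤ) - 2 + (i : ℤ) < -2 := by
          intro i hi
          have : (i : ℤ) < (d : ℤ) := by exact_mod_cast hi
          linarith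
        have hdM : d + (R + 2) ≤ R + 2 + d := by omega
        have e1 := sum_window_eq w (-(d : ℤ) - 2) (R + 2 + d) d (R + 2) hdM
          (fun i hi => h.2.1 _ (Or.inl (by have := hlt i hi; linarith)))
          (fun i hi1 hi2 => by exfalso; omega)
        have e2 := sum_window_eq (Tt w l q y z) (-(d : ℤ) - 2) (R + 2 + d) d (R + 2) hdM
          (fun i hi => Tt_low h y z _ (hlt i hi))
          (fun i hi1 hi2 => by exfalso; omega)
        have e3 := sum_window_eq (Xi w l y z) (-(d : ℤ) - 2) (R + 2 + d) d (R + 2) hdM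
          (fun i hi => Xi_low h y z _ (by have := hlt i hi; linarith))
          (fun i hi1 hi2 => by exfalso; omega)
        have hshift : -(d : ℤ) - 2 + (d : ℤ) = -2 := by ring
        rw [hshift] at e1 e2 e3
        rw [e1, e2, e3, sum_peel2 w R, sum_peel2 (Tt w l q y z) R, sum_peel2 (Xi w l y z) R]
        have hwm2 : w (-2) = 0 := h.2.1 _ (Or.inl (by norm_num))
        have hT2 : Tt w l q y z (-2) = w 0 * y ^ 2 := by
          show w (-2 + 2) * y ^ 2 + 2 * l (-2 + 1) * y * z + q (-2) * z ^ 2 = _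
          rw [show (-2 : ℤ) + 2 = 0 by norm_num, show (-2 : ℤ) + 1 = -1 by norm_num,
            h.2.2.1 (-1) (Or.inl (by norm_num)), h.2.2.2.1 (-2) (Or.inl (by norm_num))]
          ring
        have hX2 : Xi w l y z (-2) = 0 := Xi_low h y z _ (by norm_num)
        have hwa : w (-(d : ℤ) - 2) = 0 := h.2.1 _ (Or.inl (by linarith))
        have hwa1 : w (-(d : ℤ) - 2 + 1) = 0 := h.2.1 _ (Or.inl (by linarith))
        have hXa : Xi w l y z (-(d : ℤ) - 2) = 0 := Xi_low h y z _ (by linarith)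
        rw [hwm1, hwm2, hT2, hT1, hX1, hX2, hwa, hwa1, hXa]
        have hW := win_top h 0 R le_rfl (Int.natCast_nonneg m) y z y
        rw [hX0, zero_add] at hW
        nlinarith
    · -- the window starts inside the support
      have ha : (0 : ℤ) ≤ (R : ℤ) - (C : ℤ) := by
        have : (C : ℤ) ≤ (R : ℤ) := by exact_mod_cast hge
        linarith
      have ham : (R : ℤ) - (C : ℤ) ≤ (m : ℤ) := by
        have : (R : ℤ) ≤ (m : ℤ) + (C : ℤ) := by exact_mod_cast hRm
        linarith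
      exact win_top h _ C ha ham y z θ

/-- the new sequences as window sums of the old ones -/
theorem step_window (w l q : ℤ → ℝ) (C : ℕ) (t : ℝ) (r : ℤ) (y z : ℝ) :
    addW C w r = ∑ i ∈ range (C + 1), w (r - (C : ℤ) + (i : ℤ)) ∧
    addW C w (r + 2) * y ^ 2 + 2 * addL C t w l (r + 1) * y * z + addQ C t w l q r * z ^ 2
      = ∑ i ∈ range (C + 1), Tt w l q y z (r - (C : ℤ) + (i : ℤ))
          + 2 * (t * z) * Xi w l y z (r - (C : ℤ))
          + (t * z) ^ 2 * (w (r - (C : ℤ)) - if 1 ≤ C then w (r - (C : ℤ) + 1) else 0) ∧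
    addW C w (r + 1) * y + addL C t w l r * z
      = ∑ i ∈ range (C + 1), Xi w l y z (r - (C : ℤ) + (i : ℤ)) + (t * z) * w (r - (C : ℤ)) := by
  have eW0 : addW C w r = ∑ i ∈ range (C + 1), w (r - (C : ℤ) + (i : ℤ)) := sum_reflect w r C
  have eW1 : addW C w (r + 1) = ∑ i ∈ range (C + 1), w (r - (C : ℤ) + (i : ℤ) + 1) :=
    sum_reflect_shift w r 1 C
  have eW2 : addW C w (r + 2) = ∑ i ∈ range (C + 1), w (r - (C : ℤ) + (i : ℤ) + 2) :=
    sum_reflect_shift w r 2 C
  have eL0 : addL C t w l r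
      = ∑ i ∈ range (C + 1), l (r - (C : ℤ) + (i : ℤ)) + t * w (r - (C : ℤ)) := by
    show ∑ k ∈ range (C + 1), l (r - (k : ℤ)) + t * w (r - (C : ℤ)) = _
    rw [sum_reflect l r C]
  have eL1 : addL C t w l (r + 1)
      = ∑ i ∈ range (C + 1), l (r - (C : ℤ) + (i : ℤ) + 1) + t * w (r - (C : ℤ) + 1) := by
    show ∑ k ∈ range (C + 1), l (r + 1 - (k : ℤ)) + t * w (r + 1 - (C : ℤ)) = _
    rw [sum_reflect_shift l r 1 C, show r + 1 - (C : ℤ) = r - (C : ℤ) + 1 by ring]
  have eQ0 : addQ C t w l q r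
      = ∑ i ∈ range (C + 1), q (r - (C : ℤ) + (i : ℤ)) + 2 * t * l (r - (C : ℤ))
        + t ^ 2 * (w (r - (C : ℤ)) - if 1 ≤ C then w (r - (C : ℤ) + 1) else 0) := by
    show ∑ k ∈ range (C + 1), q (r - (k : ℤ)) + 2 * t * l (r - (C : ℤ))
        + t ^ 2 * (w (r - (C : ℤ)) - if 1 ≤ C then w (r - (C : ℤ) + 1) else 0) = _
    rw [sum_reflect q r C]
  have eT : ∑ i ∈ range (C + 1), Tt w l q y z (r - (C : ℤ) + (i : ℤ))
      = (∑ i ∈ range (C + 1), w (r - (C : ℤ) + (i : ℤ) + 2)) * y ^ 2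
        + 2 * (∑ i ∈ range (C + 1), l (r - (C : ℤ) + (i : ℤ) + 1)) * y * z
        + (∑ i ∈ range (C + 1), q (r - (C : ℤ) + (i : ℤ))) * z ^ 2 := by
    simp only [Tt, Finset.sum_add_distrib, ← Finset.sum_mul, ← Finset.mul_sum]
  have eX : ∑ i ∈ range (C + 1), Xi w l y z (r - (C : ℤ) + (i : ℤ))
      = (∑ i ∈ range (C + 1), w (r - (C : ℤ) + (i : ℤ) + 1)) * y
        + (∑ i ∈ range (C + 1), l (r - (C : ℤ) + (i : ℤ))) * z := by
    simp only [Xi, Finset.sum_add_distrib, ← Finset.sum_mul]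
  refine ⟨eW0, ?_, ?_⟩
  · rw [eW2, eL1, eQ0, eT]
    unfold Xi
    ring
  · rw [eW1, eL0, eX]
    ring

/-- a window sum of a sequence supported in `[0, m]` vanishes outside `[0, m + C]` -/
theorem window_zero (f : ℤ → ℝ) (hf : ∀ ρ : ℤ, (ρ < 0 ∨ (m : ℤ) < ρ) → f ρ = 0) (C : ℕ)
    (ρ : ℤ) (hρ : ρ < 0 ∨ ((m + C : ℕ) : ℤ) < ρ) :
    ∑ k ∈ range (C + 1), f (ρ - (k : ℤ)) = 0 := by
  apply Finset.sum_eq_zero
  intro k hk
  have hkC : (k : ℤ) ≤ (C : ℤ) := by
    exact_mod_cast Nat.lt_succ_iff.mp (Finset.mem_range.mp hk)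
  have hk0 : (0 : ℤ) ≤ (k : ℤ) := Int.natCast_nonneg k
  apply hf
  rcases hρ with h1 | h1
  · left
    linarith
  · right
    push_cast at h1
    linarith

/-- **The column step.** -/
theorem Lor_step (h : Lor m w l q) (C : ℕ) (t : ℝ) :
    Lor (m + C) (addW C w) (addL C t w l) (addQ C t w l q) := by
  have hbase : ∀ ρ : ℤ, (ρ < 0 ∨ ((m + C : ℕ) : ℤ) < ρ) →
      (ρ - (C : ℤ) < 0 ∨ (m : ℤ) < ρ - (C : ℤ)) := by
    intro ρ hρ
    have hC0 : (0 : ℤ) ≤ (C : ℤ) := Int.natCast_nonneg C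
    rcases hρ with h1 | h1
    · left
      linarith
    · right
      push_cast at h1
      linarith
  refine ⟨?_, ?_, ?_, ?_, ?_⟩
  · intro ρ h0 hm
    show 0 < ∑ k ∈ range (C + 1), w (ρ - (k : ℤ))
    apply Finset.sum_pos'
    · intro i _
      exact w_nonneg h _
    · by_cases hc : ρ ≤ (m : ℤ)
      · refine ⟨0, Finset.mem_range.mpr (Nat.succ_pos C), ?_⟩
        simpa using h.1 ρ h0 hc
      · have hc' : (m : ℤ) < ρ := not_le.mp hc
        obtain ⟨k, hk⟩ : ∃ k : ℕ, (k : ℤ) = ρ - (m : ℤ) :=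
          ⟨(ρ - (m : ℤ)).toNat, Int.toNat_of_nonneg (by linarith)⟩
        have hkC : k ≤ C := by
          have : (k : ℤ) ≤ (C : ℤ) := by
            push_cast at hm
            linarith
          exact_mod_cast this
        refine ⟨k, Finset.mem_range.mpr (Nat.lt_succ_of_le hkC), ?_⟩
        have : ρ - (k : ℤ) = (m : ℤ) := by linarith
        rw [this]
        exact h.1 _ (Int.natCast_nonneg m) le_rfl
  · intro ρ hρ
    exact window_zero w h.2.1 C ρ hρ
  · intro ρ hρ
    show ∑ k ∈ range (C + 1), l (ρ - (k : ℤ)) + t * w (ρ - (C : ℤ)) = 0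
    rw [window_zero l h.2.2.1 C ρ hρ, h.2.1 _ (hbase ρ hρ)]
    ring
  · intro ρ hρ
    show ∑ k ∈ range (C + 1), q (ρ - (k : ℤ)) + 2 * t * l (ρ - (C : ℤ))
        + t ^ 2 * (w (ρ - (C : ℤ)) - if 1 ≤ C then w (ρ - (C : ℤ) + 1) else 0) = 0
    rw [window_zero q h.2.2.2.1 C ρ hρ, h.2.1 _ (hbase ρ hρ), h.2.2.1 _ (hbase ρ hρ)]
    by_cases hC : 1 ≤ C
    · rw [if_pos hC]
      have hC1 : (1 : ℤ) ≤ (C : ℤ) := by exact_mod_cast hC
      have hz : w (ρ - (C : ℤ) + 1) = 0 := by
        apply h.2.1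
        rcases hρ with h1 | h1
        · left
          linarith
        · right
          push_cast at h1
          linarith
      rw [hz]
      ring
    · rw [if_neg hC]
      ring
  · intro r hr0 hrm y z
    obtain ⟨R, rfl⟩ := Int.eq_ofNat_of_zero_le hr0
    have hRm : R ≤ m + C := by exact_mod_cast hrm
    obtain ⟨e1, e2, e3⟩ := step_window w l q C t (R : ℤ) y z
    have key := win_full h C R hRm y z (t * z)
    rw [← e1, ← e2, ← e3] at key
    nlinarith

end Vale.Agent.Lib.P328.helper50
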