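import Mathlib
import Vale.Agent.Lib.P328.helper1.LorCore
import Vale.Agent.Lib.P328.helper50.NcqCount

/-!
P328: the reverse Cauchy–Schwarz inequality for the numbers of arrays with prescribed row sums
and column sums `c - e_j - e_l`, without hypotheses.

`NcqCount.lean` proves the inequality from the transfer step; the transfer step is
`NCq.lorF_transfer` of `helper1/LorCore.lean`.  Here the two are put together.
-/

namespace Vale.Agent.Lib.P328.Ncq

open Finset
open Vale.Agent.Lib.P328.NCq

variable {κ : Type} [Fintype κ] [DecidableEq κ] {n : ℕ}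

/-- **The reverse Cauchy–Schwarz inequality for the numbers of arrays** `k : κ → Fin n → ℕ`
with row sums `r` and column sums `c - e_j - e_l` (`tabs r c j l`, see `mem_tabs`): for every
real vector `v` on the columns,
`(∑ v_j v_l N_{jl}) (∑ N_{jl}) ≤ (∑ v_j N_{jl})²`. -/
theorem ncq_tabs (r : κ → ℕ) (c : Fin n → ℕ) (v : Fin n → ℝ) :
    (∑ j, ∑ l, v j * v l * ((tabs r c j l).card : ℝ)) * (∑ j, ∑ l, ((tabs r c j l).card : ℝ))
      ≤ (∑ j, ∑ l, v j * ((tabs r c j l).card : ℝ)) ^ 2 :=
  ncq_tabs_of_step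
    (fun a b hab F hF => Vale.Agent.Lib.P328.NCq.lorF_transfer a b hab F hF) r c v

/-- The same inequality for the cardinalities of the subtypes (`Hcount`). -/
theorem ncq_count (r : κ → ℕ) (c : Fin n → ℕ) (v : Fin n → ℝ) :
    (∑ j, ∑ l, v j * v l * Hcount r c j l) * (∑ j, ∑ l, Hcount r c j l)
      ≤ (∑ j, ∑ l, v j * Hcount r c j l) ^ 2 :=
  ncq_count_of_step
    (fun a b hab F hF => Vale.Agent.Lib.P328.NCq.lorF_transfer a b hab F hF) r c v

end Vale.Agent.Lib.P328.Ncq
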